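import Crest.Agent.X262.Cd62.Fin
import Crest.Agent.X262.Cc46.Main

/-!
# Row 262, road B (helper62): concavity at field level, unconditional
-/

namespace Crest.Agent.X262.Cd62

/-- **concavity at field level** -/
theorem concF : Conc78.ConcF := concF_of Cc46.cStmt

end Crest.Agent.X262.Cd62
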