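import Crest.Agent.X262.Cd62.Main
import Crest.Agent.X262.Cb72.Main
import Crest.Agent.X262.Read67.Top
import Crest.Agent.X262.Sd95.Main

/-!
# Row 262, road B (helper62): concavity at field level from part (c)
-/

namespace Crest.Agent.X262.Cd62

/-- **concavity at field level** -/
theorem concF_of (hc : Conc78.CStmt) : Conc78.ConcF :=
  conc_of Cb72.bStmt hc Sd95.exSD Read67.topStmt

end Crest.Agent.X262.Cd62
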