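import Crest.Agent.X262.Cd62.Ob
import Crest.Agent.X262.Prd86.Abs
import Crest.Agent.X262.Tr89.Fib
import Crest.Agent.X262.Vb37.Mob

/-!
# Row 262, road B (helper62): only the top power of `λ` contributes

* `itg_top` : a polynomial in `c₁ a` with coefficients from a small field;
* `exc_fr`, `ob_fr`, `cls_fr` : the classes come from the residue field of the field without the
  coordinates of `S`;
* `vir_low` : the virtual number of `T` is `± ` the virtual number of the product end.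
-/

set_option autoImplicit false
set_option linter.unusedSectionVars false

noncomputable section

namespace Crest.Agent.X262.Cd62

open Crest.Agent.X277 Crest.Agent.X277.BD Crest.Agent.X277.Pst Crest.Agent.X277.BD.Cyc Polynomial
open Crest.Agent.X262.Hb Crest.Agent.X262.Vb Crest.Agent.X262.Conc78
open Crest.Agent.X262.End66 (sum Same)
open Crest.Agent.X262.Wd (ri dn)
open Crest.Agent.X262.Geo (essFT_Rf dim_Rf')
open Crest.Agent.X262.Bub96 (hv)

variable {J : Type} [Fintype J] [DecidableEq J] {io : J → Type} [∀ j, Fintype (io j)]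
  [∀ j, DecidableEq (io j)] {J₀ : Type} [Fintype J₀] [DecidableEq J₀] {io₀ : J₀ → Type}
  [∀ j, Fintype (io₀ j)] [∀ j, DecidableEq (io₀ j)] {A A₀ I : Type} [Fintype A] [Fintype A₀]
  [Fintype I] {K K' E F : Type} [Field K] [Algebra ℂ K] [Field K'] [Algebra ℂ K'] [Field E]
  [Algebra ℂ E] [Field F] [Algebra ℂ F] {B : Th}

theorem itg_top (hB : B.Ax) [Algebra.EssFiniteType ℂ E] [Algebra.EssFiniteType ℂ F]
    (ι : F →ₐ[ℂ] E) (G : (B.H F)[X]) (a : BD ℂ E) {n : ℕ} (hd : n + dim ℂ F ≤ dim ℂ E)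
    {G' : (B.H E)[X]} (h : G' = G.map (B.pb (LP.hom ι) : B.H F →+* B.H E))
    (hG : G'.natDegree ≤ n) : B.itg E (G'.eval (B.c1 a)) = B.itg E (G'.coeff n * B.c1 a ^ n) := by
  rw [eval_eq_sum_range' (Nat.lt_succ_of_le hG), Finset.sum_range_succ, map_add, map_sum,
    Finset.sum_eq_zero fun k hk => ?_, zero_add]
  rw [h, coeff_map, ← Tr89.pc_replicate, mul_comm]
  exact Tr89.zer hB k ι _ _ List.length_replicate (by have := Finset.mem_range.1 hk; omega)

variable [Algebra.EssFiniteType ℂ K] [Algebra.EssFiniteType ℂ K'] {α : K' →ₐ[ℂ] K}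
  {z : Cfg io I K} {z' : Cfg io I K'} {W : RZ ℂ K} {r : Cd io₀ io} {Tn : Tgt io₀ A₀}

theorem geq_red (hz' : z'.NZ) (α : K' →ₐ[ℂ] K) (W : RZ ℂ K) :
    Cfg.Geq ((z'.red (plV (dn α W))).map (ri α W)) ((z'.map α).red (plV W)) := by
  have h1 := Cfg.red_map α (LP.at W) hz'
  rw [Prd.hom_at] at h1
  exact (Cfg.map_red (LP.at (dn α W)) (ri α W) hz').symm.trans h1

variable [Algebra.EssFiniteType ℂ (Rf W)] [Algebra.EssFiniteType ℂ (Rf (dn α W))]

theorem exc_fr (hB : B.Ax) (hz' : z'.NZ) (hA : Agr r.cn.jS z (z'.map α)) :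
    exc B (TP r Tn) (z.red (plV W)) (B.pb (LP.at W) (B.c1 (z.dv (TP r Tn)))) =
      B.pb (LP.hom (ri α W)) (exc B (TP r Tn) (z'.red (plV (dn α W)))
        (B.pb (LP.at (dn α W)) (B.c1 (z'.dv (TP r Tn))))) := by
  rw [hA.dv, Cfg.dv_map, ← hB.pb_c1_hom, ← hB.pb_comp, Prd.hom_at, hB.pb_comp,
    exc_congr (hA.red _).cpz, exc_geq hB (geq_red hz' α W) ((hz'.red _).map _), exc_map hB]

theorem ob_fr (hB : B.Ax) (hz' : z'.NZ) {s j : J} (hA : Agr s z (z'.map α)) (hj : j ≠ s)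
    (hc : Crd j z') : ob B j (z.red (plV W)) =
      (ob B j (z'.red (plV (dn α W)))).map (B.pb (LP.hom (ri α W)) : B.H _ →+* B.H _) := by
  rw [(hA.red _).ob hj, ob_geq hB (geq_red hz' α W) ((hz'.red _).map _) ((hc.red hz' _).map _),
    ob_map hB _ (hc.red hz' _)]

theorem cls_fr (hz' : z'.NZ) (hA : Agr r.cn.jS z (z'.map α)) {β : Fam B io₀} (hβ : Cls B Tn β)
    (hO : (pc r (z.red (plV W))).On Tn) (q : I) : β _ (r.pr ((z.red (plV W)).y q)) =
      B.pb (LP.hom (ri α W)) (β _ (r.pr ((z'.red (plV (dn α W))).y q))) := by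
  have h1 := pc_geq r (geq_red hz' α W)
  have h2 := pc_nz r (hz'.red (plV (dn α W)))
  rw [(hA.red _).pc] at hO
  have h3 := (h1.on Tn).1 hO
  rw [(hA.red _).pr]
  exact ((hβ.at ()).geq (m := fun _ => q) h1 (h2.map _) h3).trans
    ((hβ.at ()).map (m := fun _ => q) (ri α W) h2 ((Cfg.on_map Tn _).1 h3))

omit [Algebra.EssFiniteType ℂ (Rf W)] [Algebra.EssFiniteType ℂ (Rf (dn α W))]

theorem red_const {d : J → ℕ} (ξ : Dat io d I K) {s : J} (hs : d s = 0) (p : Pl ℂ K ℂ E)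
    (q q' : I) : (ξ.cfg.red p).y q s = (ξ.cfg.red p).y q' s := by
  have h0 : ∀ i t, hv (d s) (ξ.f s i) t = (ξ.f s i).coeff 0 := fun i t => by
    have h := ξ.cp.1 s i
    rw [hs] at h ⊢
    rw [eq_C_of_natDegree_le_zero h]
    cases t <;> simp [hv]
  have h1 : ξ.cfg.y q s = ξ.cfg.y q' s := funext fun i => (h0 i _).trans (h0 i _).symm
  funext i
  change p.r (((mxf ℂ (ξ.cfg.y q s)).gen _)⁻¹ * ξ.cfg.y q s i) =
    p.r (((mxf ℂ (ξ.cfg.y q' s)).gen _)⁻¹ * ξ.cfg.y q' s i)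
  rw [h1]

theorem agr_dat {d : J → ℕ} {ξ : Dat io d I K} {ξ' : Dat io d I K'} {s : J}
    (hf : ∀ j, j ≠ s → ξ.f j = (ξ'.map α).f j) (hx : ξ.x = (ξ'.map α).x) :
    Agr s ξ.cfg (ξ'.cfg.map α) := by
  rw [← Vb37.cfg_map]
  refine ⟨fun q j hj => funext fun i => ?_, fun κ _ => ?_⟩
  · change hv _ (ξ.f j i) (ξ.x q) = hv _ _ _
    rw [hf j hj, hx]
  · change Submodule.map (ξ.evl _) _ = Submodule.map _ _
    congr 1
    ext σ q
    change hv _ _ (ξ.x q) = hv _ _ _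
    rw [hx]

/-- the conclusion of the term level comparison -/
def Stp (B : Th) (n : Cn io) (T : Tgt io A) {A' : Type} [Fintype A'] (T' : Tgt io A') (h : ℕ)
    (z : Cfg io I K) : Prop :=
  z.dv T = z.dv T' ∧ ∀ W, Dvs W → (z.dv T).val W ≠ 1 →
    (z.red (plV W)).On (sum T n.xT) ∧ (z.red (plV W)).On T' ∧
    ((ob B n.jU (z.red (plV W))).natDegree ≤ h ∧ (ob B n.jU (z.red (plV W))).coeff h = (-1) ^ h) ∧
    ∀ q₀, exc B T (z.red (plV W)) (B.pb (LP.at W) (B.c1 (z.dv T))) =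
      exc B T' (z.red (plV W)) (B.pb (LP.at W) (B.c1 (z.dv T))) *
        (ob B n.jU (z.red (plV W))).eval (B.c1 (ln ((z.red (plV W)).y q₀) n.jS))

/-- **only the top power of `λ` contributes** -/
theorem vir_low (hB : B.Ax) {d₀ : J₀ → ℕ} {T : Tgt io A} {M : Type} [Fintype M]
    {al : M → Fam B io} {be ga : M → Fam B io₀} (hbe : ∀ q, Cls B Tn (be q))
    (hga : ∀ q, Cls B Tn (ga q))
    (hal : ∀ q (E : Type) [Field E] [Algebra ℂ E] [Algebra.EssFiniteType ℂ E] (y : Pnt io E),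
      NZ y → (sum T r.cn.xT).On y →
      al q E y = be q E (r.pr y) + hc B r.cn.jS E y * ga q E (r.pr y))
    {h r₀ : ℕ} (hr : r₀ = h + Fintype.card M) {ξ : Dat io (r.up d₀) I K}
    {ξ' : Dat io (r.up d₀) I K'} (hf : ∀ j, j ≠ r.cn.jS → ξ.f j = (ξ'.map α).f j)
    (hx : ξ.x = (ξ'.map α).x) (hd : r₀ + dim ℂ K' ≤ dim ℂ K)
    (hS : Stp B r.cn T (TP r Tn) h ξ.cfg) (m : M → I) (q₀ : M) :
    vir B T ξ.cfg m (prd al) = (-1) ^ h * vir B (TP r Tn) ξ.cfg m
      fun E _ _ y => hc B r.cn.jS E (y q₀) ^ r₀ * prd ga E fun q => r.pr (y q) := by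
  classical
  rw [← vir_smul]
  refine vir_congr hS.1 fun W hW h1 => ?_
  obtain ⟨o1, o2, ⟨o3, o4⟩, o5⟩ := hS.2 W hW h1
  have hA := agr_dat hf hx
  have hz := (Tree87.nz_cfg ξ).red (plV W)
  have hz' := Tree87.nz_cfg ξ'
  have hW' : Dvs (dn α W) := Val40.dvs_dn hW (Prd.ne_top_of_sup (D := ξ'.cfg.dv (TP r Tn))
    (Prd.mem_sup_pb.1 (by rw [← Cfg.dv_map, ← hA.dv, ← hS.1]; exact h1)))
  have := essFT_Rf hW
  have := essFT_Rf hW'
  have e1 := dim_Rf' hW
  have e2 := dim_Rf' hW'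
  have o6 := ((on_TP r).1 o2).1
  set w := ξ.cfg.red (plV W) with hw
  set v := ξ'.cfg.red (plV (dn α W))
  set x := exc B (TP r Tn) w (B.pb (LP.at W) (B.c1 (ξ.cfg.dv (TP r Tn)))) with hx'
  let L : M → (B.H (Rf W))[X] := fun q =>
    C (ga q _ (r.pr (w.y (m q)))) * X + C (be q _ (r.pr (w.y (m q))))
  have l1 : ∀ q ∈ Finset.univ, (L q).natDegree ≤ 1 := fun q _ => natDegree_linear_le
  have l2 : (∏ q, L q).natDegree ≤ Fintype.card M :=
    (natDegree_prod_le _ _).trans ((Finset.sum_le_sum l1).trans (by simp))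
  have l3 : (∏ q, L q).coeff (Fintype.card M) = ∏ q, ga q _ (r.pr (w.y (m q))) := by
    simpa [L, coeff_one] using coeff_prod_of_natDegree_le Finset.univ L 1 l1
  have g1 := itg_top hB (ri α W) (C (exc B (TP r Tn) v (B.pb (LP.at (dn α W))
      (B.c1 (ξ'.cfg.dv (TP r Tn))))) * (ob B r.cn.jU v *
      ∏ q, (C (ga q _ (r.pr (v.y (m q)))) * X + C (be q _ (r.pr (v.y (m q)))))))
    (ln (w.y (m q₀)) r.cn.jS) (n := r₀) (by omega) (G' := C x * (ob B r.cn.jU w * ∏ q, L q))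
    (by
      simp only [Polynomial.map_mul, Polynomial.map_prod, Polynomial.map_add, map_C, map_X, L]
      rw [hx', exc_fr hB hz' hA, ob_fr hB hz' hA r.cn.SU.symm (crd_cfg ξ' _)]
      simp only [hw, cls_fr hz' hA (hbe _) o6, cls_fr hz' hA (hga _) o6]
      rfl)
    ((natDegree_C_mul_le _ _).trans (natDegree_mul_le.trans (hr ▸ add_le_add o3 l2)))
  rw [coeff_C_mul, hr, coeff_mul_add_eq_of_natDegree_le o3 l2, o4, l3, ← hr] at g1
  have g2 : trm B T ξ.cfg m (prd al) W =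
      (C x * (ob B r.cn.jU w * ∏ q, L q)).eval (B.c1 (ln (w.y (m q₀)) r.cn.jS)) := by
    rw [trm, o5 (m q₀), hS.1, eval_mul, eval_mul, eval_C, eval_prod, mul_assoc, prd]
    congr 2
    refine Finset.prod_congr rfl fun q _ => ?_
    have e : w.y (m q) r.cn.jS = w.y (m q₀) r.cn.jS := red_const ξ (r.up_S d₀) _ (m q) (m q₀)
    rw [hal q _ _ (hz _) (o1 _), hc, ln, e]
    simp only [L, eval_add, eval_mul, eval_C, eval_X]
    rw [add_comm, mul_comm]
    rfl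
  rw [g2, g1]
  congr 1
  change _ = x * (((-1 : ℂ) ^ h) • (B.c1 _ ^ r₀ * ∏ q, ga q _ (r.pr (w.y (m q)))))
  rw [Algebra.smul_def, map_pow, map_neg, map_one]
  ring

end Crest.Agent.X262.Cd62
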