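import Crest.Agent.X262.Cd62.Low
import Crest.Agent.X262.Conc78.Glue
import Crest.Agent.X262.Read67.Sd
import Crest.Agent.X262.Vb.Ax0

/-!
# Row 262, road B (helper62): concavity at field level

`conc_of : BStmt → CStmt → ExSD → TopStmt → ConcF`.
-/

set_option autoImplicit false
set_option linter.unusedSectionVars false

noncomputable section

namespace Crest.Agent.X262.Cd62

open Crest.Agent.X277 Crest.Agent.X277.BD Crest.Agent.X277.Pst Crest.Agent.X277.BD.Cyc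
open Crest.Agent.X262.Hb Crest.Agent.X262.Vb Crest.Agent.X262.Conc78

/-- **concavity at field level** -/
theorem conc_of (hb : BStmt) (hc : CStmt) (h1 : Read67.ExSD) (h2 : Read67.TopStmt) : ConcF := by
  intro B hB J _ _ io _ _ A _ J₀ _ _ io₀ _ _ A₀ _ r T c Tn c₀ d₀ hU hG hG₀ hL hS hv M _ al be ga
    hal hbe hga he hr
  by_cases h : 3 ≤ Fintype.card M ∧ ∀ k, Nonempty (io₀ k) ∧ (d₀ k = 0 ∨ Nontrivial (io₀ k))
  swap
  · refine ⟨1, one_ne_zero, ?_⟩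
    rw [GW_of_not, GW_of_not, mul_zero]
    · rintro ⟨K, _, _, ξ, hξ⟩
      exact h ⟨Vb37.univ_card hξ, Vb37.cp_cond ξ.cp⟩
    · rintro ⟨K, _, _, ξ, hξ⟩
      exact h ⟨Vb37.univ_card hξ, Vb37.cp_cond (pd r ξ).cp⟩
  have hD : r.cn.Dg (r.up d₀) := ⟨r.up_C _, r.up_S _, by rwa [← r.up_k d₀] at hU⟩
  obtain ⟨N₁, s1⟩ := step hB hb hc r.cn hD hG hL hv hS
  obtain ⟨N₂, s2⟩ := h2 B hB r Tn c₀ d₀ hG₀
  obtain ⟨N₃, s3⟩ := hG.vir_eq hB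
  obtain ⟨N₄, s4⟩ := hG₀.vir_eq hB
  obtain ⟨S⟩ := h1 r d₀ M (N₁ + N₂ + N₃ + N₄) h.1 h.2 (Fintype.card_pos_iff.1 (by omega))
  obtain ⟨q₀⟩ : Nonempty M := Fintype.card_pos_iff.1 (by omega)
  have e : r.up d₀ r.cn.jU = d₀ r.jU := r.up_k _ _
  obtain ⟨t1, t2⟩ := s1 S.ξ' (Vb10.nrmUp_mono S.nrm_ξ' (by omega))
  rw [e] at t2
  have t3 := vir_low hB hbe hga he (h := d₀ r.jU - 1) rfl (fun _ => S.f_ne) S.x_eq
    (by have := S.dim_S; omega) ⟨t1, fun W hW hw => by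
      have := Geo.essFT_Rf hW
      obtain ⟨o1, o2, o3, o4⟩ := t2 (LP.at W) _ rfl (on_at (Tree87.nz_cfg _) hw)
      exact ⟨o1, o2, o3, (o4 fun h0 => hw (by rw [Cfg.dv_of_on T h0, val_zero])).2⟩⟩ S.m q₀
  rw [s2 _ (by omega) S _ (MCls.prd hga) q₀ _ (by omega),
    s3 _ (MCls.prd hal) S.ov_ξ' (Vb10.nrmUp_mono S.nrm_ξ' (by omega)),
    s4 _ (MCls.prd hga) S.ov (Vb10.nrmUp_mono S.nrm (by omega))] at t3
  have p1 : (deg S.τ : ℂ) ≠ 0 := Nat.cast_ne_zero.2 S.pos'.ne'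
  have p2 : (deg S.θ₀ : ℂ) ≠ 0 := Nat.cast_ne_zero.2 S.pos.ne'
  refine ⟨(deg S.τ : ℂ)⁻¹ * ((-1) ^ (d₀ r.jU - 1) * deg S.θ₀), by simp [p1, p2], ?_⟩
  rw [mul_assoc, mul_assoc, ← t3, inv_mul_cancel_left₀ p1]

end Crest.Agent.X262.Cd62
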