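import Crest.Agent.X262.Cd62.Prj

/-!
# Row 262, road B (helper62): naturality of the concave class, configurations which agree off `S`

* `ob_geq`, `ob_map` : gauge invariance and field extension for `Conc78.ob`;
* `Agr s z w` : the configurations agree off the factor `s`;  `Agr.red`, `Agr.ob`, `Agr.cpz`,
  `Agr.dv`.
-/

set_option autoImplicit false
set_option linter.unusedSectionVars false

noncomputable section

namespace Crest.Agent.X262.Cd62

open Crest.Agent.X277 Crest.Agent.X277.BD Crest.Agent.X277.Pst Crest.Agent.X277.BD.Cyc Polynomial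
open Crest.Agent.X262.Hb Crest.Agent.X262.Vb Crest.Agent.X262.Conc78
open Crest.Agent.X262.Node22 (scl chr chr_ne pv_scl)
open Crest.Agent.X262.Tree87 (Rb HZ MZ mem_Rb pR pM)

variable {J : Type} [Fintype J] [DecidableEq J] {io : J → Type} [∀ j, Fintype (io j)]
  [∀ j, DecidableEq (io j)] {I : Type} [Fintype I] {K E : Type} [Field K] [Algebra ℂ K] [Field E]
  [Algebra ℂ E] {B : Th} {z w : Cfg io I K} {j s : J}

theorem mh_wd (j : J) (b : io j × io j) (a : io j) : MH (wdM (vr j) b a) (Pi.single j 1) := by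
  have h0 : MH (0 : MvPolynomial (Vr io) ℂ) (Pi.single j 1) := fun _ h => (h rfl).elim
  refine mh_sub ?_ ?_ <;> split_ifs
  exacts [mh_vr _ _, h0, mh_vr _ _, h0]

theorem hz_wd (j : J) :
    HZ (fun _ : io j × io j => Pi.single j 1) (fun _ : io j => (0 : J → ℕ)) (wdM (vr j)) :=
  fun b a => by simpa using MZ.of_MH (mh_wd j b a)

theorem pv_wd (y : Pnt io K) (b : io j × io j) (a : io j) : pv y (wdM (vr j) b a) =
    (if a = b.1 then y j b.2 else 0) - if a = b.2 then y j b.1 else 0 := by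
  simp only [pv, wdM, map_sub]
  split_ifs <;> simp

/-- the coordinates of the factor `j` are sections -/
def Crd (j : J) (z : Cfg io I K) : Prop := ∀ i, (fun q => z.y q j i) ∈ z.V (Pi.single j 1)

theorem Crd.le (h : Crd j z) : cU j z ≤ HU j z := by
  refine Submodule.span_le.2 ?_
  rintro _ ⟨a, rfl⟩
  refine mem_Rb.2 ⟨fun b => ?_, fun q => ⟨Pi.single a 1, ?_⟩⟩
  · simp only [pv_wd]
    refine sub_mem (H := z.V _) (x := fun q => if a = b.1 then z.y q j b.2 else 0)
      (y := fun q => if a = b.2 then z.y q j b.1 else 0) ?_ ?_ <;> split_ifs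
    exacts [h _, zero_mem _, h _, zero_mem _]
  · funext b
    simp [pM]

theorem Crd.gau (h : Crd j z) (c : I → J → K) : Crd j (z.gau c) := fun i =>
  ⟨_, h i, funext fun q => by
    change (∏ j', c q j' ^ (Pi.single j 1 : J → ℕ) j') * _ = c q j * _
    rw [Finset.prod_eq_single j (fun j' _ h => by simp [h]) (by simp)]
    simp⟩

theorem Crd.red (h : Crd j z) (hz : z.NZ) (p : Pl ℂ K ℂ E) : Crd j (z.red p) := fun i =>
  mem_redS p (h.gau (z.nrm p.V) i) fun q => (Cfg.pr_nrm hz p.V q j).1 i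

theorem Crd.map (h : Crd j z) (α : K →ₐ[ℂ] E) : Crd j (z.map α) := fun i => mem_mapS α (h i)

theorem crd_cfg {d : J → ℕ} (ξ : Dat io d I K) (j : J) : Crd j ξ.cfg := fun i => by
  simpa [pv] using Tree87.pv_mem_cfg ξ (mh_vr j i)

theorem Crd.geq (h : Crd j z) (h' : Cfg.Geq z w) : Crd j w := by
  obtain ⟨c, -, rfl⟩ := h'
  exact h.gau c

theorem ob_geq (hB : B.Ax) [Algebra.EssFiniteType ℂ K] (h : Cfg.Geq z w) (hz : z.NZ)
    (hc : Crd j z) : ob B j w = ob B j z := by
  obtain ⟨c, h0, rfl⟩ := h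
  have h1 : cU j (z.gau c) = (cU j z).map (dia fun x => chr (c x.2) (Pi.single j 1)) := by
    rw [cU, cU, Submodule.map_span, ← Set.range_comp]
    congr 2
    funext a x
    exact pv_scl (mh_wd j x.1 a) _ _
  rw [ob, h1, HU, (hz_wd j).Rb_gau h0]
  exact hB.cp2_dia (fun x : (io j × io j) × I => chr_ne (h0 x.2) _)
    (fun x => lw_scl (hz x.2) (h0 x.2) _) hc.le

theorem ob_map (hB : B.Ax) [Algebra.EssFiniteType ℂ K] [Algebra.EssFiniteType ℂ E]
    (α : K →ₐ[ℂ] E) (hc : Crd j z) :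
    ob B j (z.map α) = (ob B j z).map (B.pb (LP.hom α) : B.H K →+* B.H E) := by
  have h1 : cU j (z.map α) = mapS α (cU j z) := by
    rw [cU, cU, Tree87.mapS_span]
    congr 2
    funext a x
    exact pv_map α _ _
  have h2 : aU j (z.map α) = fun x => (LP.hom α).res (aU j z x) := funext fun x => lw_map α _ _
  rw [ob, ob, hB.cp2_rd (fun x => val_hom α _) hc.le, rd_eq, rd_eq, redS_hom, redS_hom, h1, h2,
    HU, HU, Tree87.Rb_map]

/-- the configurations agree off the factor `s` -/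
structure Agr (s : J) (z w : Cfg io I K) : Prop where
  y : ∀ q j, j ≠ s → z.y q j = w.y q j
  V : ∀ κ : J → ℕ, κ s = 0 → z.V κ = w.V κ

namespace Agr

variable (h : Agr s z w)
include h

theorem ln (q : I) (hj : j ≠ s) : ln (z.y q) j = ln (w.y q) j := congrArg (mxf ℂ) (h.y q j hj)

theorem nrm (V : RZ ℂ K) (q : I) (hj : j ≠ s) : z.nrm V q j = w.nrm V q j := by
  rw [Cfg.nrm, Cfg.nrm, h.ln q hj]

theorem red (p : Pl ℂ K ℂ E) : Agr s (z.red p) (w.red p) where
  y q j hj := by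
    funext i
    change p.r (_ * _) = p.r (_ * _)
    rw [h.nrm _ q hj, h.y q j hj]
  V κ hκ := by
    change redS p (sclS _ _) = redS p (sclS _ _)
    rw [h.V κ hκ]
    congr 2
    funext q
    refine Finset.prod_congr rfl fun j _ => ?_
    by_cases hj : j = s
    · rw [hj, hκ, pow_zero, pow_zero]
    · rw [h.nrm _ q hj]

theorem ob (hj : j ≠ s) : ob B j z = ob B j w := by
  have h1 : ∀ q b a, pv (z.y q) (wdM (vr j) b a) = pv (w.y q) (wdM (vr j) b a) := fun q b a => by
    rw [pv_wd, pv_wd, h.y q j hj]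
  have h2 : aU j z = aU j w := funext fun x => by rw [aU, aU, lw_single, lw_single, h.ln _ hj]
  have h3 : cU j z = cU j w := by simp only [cU, h1]
  have h4 : ∀ q, pR (wdM (vr j)) (z.y q) = pR (wdM (vr j)) (w.y q) := fun q => by
    rw [pR, pR, show pM (wdM (vr j)) (z.y q) = pM (wdM (vr j)) (w.y q) from
      funext fun b => funext fun a => h1 q b a]
  have h5 : HU j z = HU j w := by
    simp only [HU, Rb, h4, h.V _ (Pi.single_eq_of_ne hj.symm 1)]
  rw [Conc78.ob, Conc78.ob, h2, h3, h5]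

end Agr

variable {J₀ : Type} [Fintype J₀] [DecidableEq J₀] {io₀ : J₀ → Type} [∀ j, Fintype (io₀ j)]
  [∀ j, DecidableEq (io₀ j)] {A₀ : Type} [Fintype A₀] {r : Cd io₀ io} {T : Tgt io₀ A₀}

namespace Agr

variable (h : Agr r.cn.jS z w)
include h

theorem pr (q : I) : r.pr (z.y q) = r.pr (w.y q) := by
  funext k i
  exact congrFun (h.y q _ (by simp [Cd.cn])) _

theorem pc : pc r z = pc r w := Cfg.ext h.pr fun _ => h.V _ (r.up_S _)

theorem ea : z.ea (TP r T) = w.ea (TP r T) := by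
  funext ⟨a, q⟩
  rcases a with a | p
  · rw [ea_inl, ea_inl, h.pc]
  · rw [ea_inr, ea_inr, h.ln q r.cn.CS]

theorem sv : z.sv (TP r T) = w.sv (TP r T) := by
  funext ⟨a, q⟩
  rcases a with a | p
  · rw [sv_inl, sv_inl, h.pc]
  · rw [sv_inr, sv_inr, h.y q _ r.cn.CS]

theorem dv : z.dv (TP r T) = w.dv (TP r T) := by rw [Cfg.dv, Cfg.dv, h.sv, h.ea]

theorem cpz : cpz B (TP r T) z = cpz B (TP r T) w := by
  have h1 : z.Eb (TP r T) = w.Eb (TP r T) := by
    ext σ
    rw [mem_Eb_TP, mem_Eb_TP, h.pc, h.V r.cn.kx (Pi.single_eq_of_ne r.cn.CS.symm 1)]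
  rw [Vb.cpz, Vb.cpz, h.ea, h1]

end Agr

end Crest.Agent.X262.Cd62
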